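import Vale.Agent.P113.Defs
import Vale.Agent.P113.H278.Code
import Vale.Agent.P113.H854.Traj

/-!
The trajectory of the start point meets the detection slab iff the program halts.
-/

namespace Vale.Agent.P113.H281

open Set
open Vale.Agent.P113.H278 Vale.Agent.P113.H907 Vale.Agent.P113.H854

/-- The directions of the five slots. -/
noncomputable def dirs : Fin 5 → E3 :=
  ![Pi.single 1 1, Pi.single 2 1, Pi.single 0 1, Pi.single 1 1, Pi.single 2 1]

/-- The profiles of the five slots. -/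
def profs (q : ℝ) (G : Fin 4 → E3 → ℝ) : Fin 5 → E3 → ℝ := ![fun _ => q, G 0, G 1, G 2, G 3]

/-- `G` is the family of the four profiles of the program. -/
structure IsProfile {m k : ℕ} (P : RevProg m k) (C : CutFamily) (G : Fin 4 → E3 → ℝ) : Prop where
  h0 : ∀ x, G 0 x = (boxSys P).F1 C (x 0) (x 1)
  h1 : ∀ x, G 1 x = (boxSys P).F2 C (x 2)
  h2 : ∀ x, G 2 x = (boxSys P).F3 C (x 2)
  h3 : ∀ x, G 3 x = (boxSys P).F4 C (x 0) (x 1)

theorem five_pos : 0 < 5 := by norm_num

/-- the start point -/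
noncomputable def apt {m k : ℕ} (P : RevProg m k) : Fin 3 → ℚ := ![X0 P.start, 1 / 3, 0]

/-- the lower corner of the detection box -/
def lo {m k : ℕ} (P : RevProg m k) : Fin 3 → ℚ := ![0, 0, BoxSys.zlo P.rules.card]

/-- the upper corner of the detection box -/
def hi {m k : ℕ} (P : RevProg m k) : Fin 3 → ℚ := ![1, 1, BoxSys.zhi P.rules.card]

theorem lo_lt_hi {m k : ℕ} (P : RevProg m k) (i : Fin 3) : lo P i < hi P i := by
  have := BoxSys.slab_bounds P.rules.card
  fin_cases i <;> simp [lo, hi, this.2.1]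

section

variable {m k : ℕ} (P : RevProg m k) {C : CutFamily} {G : Fin 4 → E3 → ℝ} (l : List (Fin k))

/-- the positions at the times `n / 5` -/
noncomputable def pp (G : Fin 4 → E3 → ℝ) (n : ℕ) : E3 :=
  H854.P 5 five_pos dirs (profs ((1 / 3 * code l : ℚ) : ℝ) G) (fun i => (apt P i : ℝ)) n

/-- the trajectory -/
noncomputable def traj (G : Fin 4 → E3 → ℝ) (t : ℝ) : E3 :=
  H854.X 5 five_pos dirs (profs ((1 / 3 * code l : ℚ) : ℝ) G) (fun i => (apt P i : ℝ)) t

theorem slot_eq (n : ℕ) (j : Fin 5) (h : n % 5 = j) : slot 5 five_pos n = j := Fin.ext h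

theorem pp_succ (n : ℕ) (hn : n % 5 ≠ 0) (j : Fin 5) (h : n % 5 = j) {x : E3}
    (hx : pp P l G n = x) :
    pp P l G (n + 1) = x + profs ((1 / 3 * code l : ℚ) : ℝ) G j x • dirs j := by
  unfold pp at *
  rw [P_succ_of_ne n (Or.inl hn), slot_eq n j h, hx]

theorem pp_idle (n : ℕ) (hn : n % 5 = 0) (h0 : 0 < n) : pp P l G (n + 1) = pp P l G n := by
  unfold pp
  rw [P_succ_idle n hn h0]

theorem pp_one : pp P l G 1 = ![(X0 P.start : ℝ), 1 / 3 + ((1 / 3 * code l : ℚ) : ℝ), 0] := by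
  unfold pp
  have h := P_succ_of_ne (N := 5) (hN := five_pos) (dir := dirs)
    (F := profs ((1 / 3 * code l : ℚ) : ℝ) G) (a := fun i => (apt P i : ℝ)) 0 (Or.inr rfl)
  rw [zero_add] at h
  rw [h, slot_eq 0 0 rfl, P_zero]
  funext i
  fin_cases i <;> simp [profs, dirs, apt]

/-- the five positions of one period -/
theorem pp_period (hG : IsProfile P C G) {c d : Cfg (Fin m) (Fin k)} (h : P.Step c d) (n : ℕ)
    (hn : pp P l G (5 * n + 1) = ![(ptx c : ℝ), (pty c : ℝ), 0]) :
    ∃ z : ℝ, 0 < z ∧ z < BoxSys.zlo P.rules.card ∧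
      pp P l G (5 * n + 2) = ![(ptx c : ℝ), (pty c : ℝ), z] ∧
      pp P l G (5 * n + 3) = ![(ptx d : ℝ), (pty c : ℝ), z] ∧
      pp P l G (5 * n + 4) = ![(ptx d : ℝ), (pty d : ℝ), z] ∧
      pp P l G (5 * n + 5) = ![(ptx d : ℝ), (pty d : ℝ), 0] ∧
      pp P l G (5 * (n + 1) + 1) = ![(ptx d : ℝ), (pty d : ℝ), 0] := by
  obtain ⟨z, z0, z1, e1, e2, e3, e4⟩ := step_profile C P h
  have p2 : pp P l G (5 * n + 2) = ![(ptx c : ℝ), (pty c : ℝ), z] := by
    rw [pp_succ P l (5 * n + 1) (by omega) 1 (by simp) hn]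
    funext i
    fin_cases i <;> simp [profs, dirs, hG.h0, e1]
  have p3 : pp P l G (5 * n + 3) = ![(ptx d : ℝ), (pty c : ℝ), z] := by
    rw [pp_succ P l (5 * n + 2) (by omega) 2 (by simp) p2]
    funext i
    fin_cases i <;> simp [profs, dirs, hG.h1, e2]
  have p4 : pp P l G (5 * n + 4) = ![(ptx d : ℝ), (pty d : ℝ), z] := by
    rw [pp_succ P l (5 * n + 3) (by omega) 3 (by simp) p3]
    funext i
    fin_cases i <;> simp [profs, dirs, hG.h2, e3]
  have p5 : pp P l G (5 * n + 5) = ![(ptx d : ℝ), (pty d : ℝ), 0] := by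
    rw [pp_succ P l (5 * n + 4) (by omega) 4 (by simp) p4]
    funext i
    fin_cases i <;> simp [profs, dirs, hG.h3, e4]
  refine ⟨z, z0, z1, p2, p3, p4, p5, ?_⟩
  have : 5 * (n + 1) + 1 = (5 * n + 5) + 1 := by ring
  rw [this, pp_idle P l (5 * n + 5) (by omega) (by omega), p5]

theorem pp_run (hG : IsProfile P C G) {c : ℕ → Cfg (Fin m) (Fin k)}
    (h0 : c 0 = Cfg.start P.start l) (n : ℕ) (h : ∀ i < n, P.Step (c i) (c (i + 1))) :
    pp P l G (5 * n + 1) = ![(ptx (c n) : ℝ), (pty (c n) : ℝ), 0] := by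
  induction n with
  | zero =>
    rw [mul_zero, zero_add, pp_one, h0, (pt_start P.start l).1, (pt_start P.start l).2]
    push_cast
    ring_nf
  | succ n ih =>
    obtain ⟨z, _, _, _, _, _, _, h6⟩ := pp_period P l hG (h n (by omega)) n
      (ih fun i hi => h i (by omega))
    exact h6

theorem traj_nat (n : ℕ) : traj P l G ((n : ℝ) / 5) = pp P l G n := by
  have := X_nat (N := 5) (hN := five_pos) (dir := dirs)
    (F := profs ((1 / 3 * code l : ℚ) : ℝ) G) (a := fun i => (apt P i : ℝ)) n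
  simpa [traj, pp] using this

/-- If the program halts, the trajectory meets the detection box. -/
theorem detect_of_halts (hG : IsProfile P C G) (h : P.Halts l) :
    ∃ t : ℝ, 0 ≤ t ∧ InBox (lo P) (hi P) (traj P l G t) := by
  obtain ⟨N, c, h0, hs, hN⟩ := h
  have h1 := pp_run P l hG h0 N hs
  refine ⟨((5 * N + 2 : ℕ) : ℝ) / 5, by positivity, ?_⟩
  rw [traj_nat, pp_succ P l (5 * N + 1) (by omega) 1 (by simp) h1]
  obtain ⟨z1, z2⟩ := halt_profile C P hN
  obtain ⟨⟨b1, b2⟩, b3, b4⟩ := pt_bounds (c N)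
  refine ⟨fun _ => 0, fun i => ?_⟩
  fin_cases i
  · simp [profs, dirs, lo, hi]
    exact ⟨by exact_mod_cast b1, by exact_mod_cast b2⟩
  · simp [profs, dirs, lo, hi]
    exact ⟨by exact_mod_cast b3, by exact_mod_cast b4⟩
  · simp [profs, dirs, lo, hi, hG.h0]
    exact ⟨z1, z2⟩

/-- the region below the detection slab -/
def below (z : ℝ) : Set E3 := {x | 0 ≤ x 2 ∧ x 2 < z}

theorem convex_below (z : ℝ) : Convex ℝ (below z) := by
  have h1 : Convex ℝ {x : E3 | 0 ≤ x 2} :=
    convex_halfSpace_ge (f := fun x : E3 => x 2) ⟨fun _ _ => rfl, fun _ _ => rfl⟩ 0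
  have h2 : Convex ℝ {x : E3 | x 2 < z} :=
    convex_halfSpace_lt (f := fun x : E3 => x 2) ⟨fun _ _ => rfl, fun _ _ => rfl⟩ z
  exact h1.inter h2

theorem not_inBox_of_below {x : E3} (h : x ∈ below (BoxSys.zlo P.rules.card)) :
    ¬ InBox (lo P) (hi P) x := by
  rintro ⟨n, hn⟩
  obtain ⟨h1, h2⟩ := hn 2
  obtain ⟨h3, h4⟩ := h
  have h5 := (BoxSys.slab_bounds P.rules.card).2.2
  have h5' : (BoxSys.zhi P.rules.card : ℝ) < 1 := by exact_mod_cast h5
  simp only [lo, hi, Matrix.cons_val] at h1 h2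
  rcases le_or_gt (n 2) 0 with h | h
  · have : ((n 2 : ℤ) : ℝ) ≤ 0 := by exact_mod_cast h
    linarith
  · have : (1 : ℝ) ≤ ((n 2 : ℤ) : ℝ) := by exact_mod_cast h
    linarith

theorem profs_indep (hG : IsProfile P C G) (q : ℝ) (j : Fin 5) (x : E3) (s : ℝ) :
    profs q G j (x + s • dirs j) = profs q G j x := by
  fin_cases j
  · simp [profs]
  · simp [profs, dirs, hG.h0]
  · simp [profs, dirs, hG.h1]
  · simp [profs, dirs, hG.h2]
  · simp [profs, dirs, hG.h3]

/-- If the program runs for ever, the trajectory never meets the detection box. -/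
theorem not_detect_of_runs (hG : IsProfile P C G) (h : P.Runs l) (t : ℝ) (ht : 0 ≤ t) :
    ¬ InBox (lo P) (hi P) (traj P l G t) := by
  obtain ⟨c, h0, hs, -⟩ := h
  have hz := (BoxSys.slab_bounds P.rules.card).1
  have hz' : (0 : ℝ) < BoxSys.zlo P.rules.card := by exact_mod_cast hz
  have key : ∀ n, pp P l G n ∈ below (BoxSys.zlo P.rules.card) := by
    intro n
    rcases Nat.eq_zero_or_pos n with rfl | hn
    · have : pp P l G 0 = fun i => (apt P i : ℝ) := P_zero
      rw [this]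
      simp [below, apt, hz']
    · obtain ⟨N, j, hj, rfl⟩ : ∃ N j, j < 5 ∧ n = 5 * N + 1 + j :=
        ⟨(n - 1) / 5, (n - 1) % 5, Nat.mod_lt _ five_pos, by omega⟩
      have h1 := pp_run P l hG h0 N (fun i _ => hs i)
      obtain ⟨z, z0, z1, p2, p3, p4, p5, -⟩ := pp_period P l hG (hs N) N h1
      interval_cases j
      · rw [add_zero, h1]; simp [below, hz']
      · rw [p2]; simp [below, z0.le, z1]
      · rw [p3]; simp [below, z0.le, z1]
      · rw [p4]; simp [below, z0.le, z1]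
      · rw [p5]; simp [below, hz']
  apply not_inBox_of_below
  have hn1 := Nat.floor_le (show 0 ≤ 5 * t by positivity)
  have hn2 := (Nat.lt_floor_add_one (5 * t)).le
  have := X_segment (N := 5) (hN := five_pos) (dir := dirs)
    (F := profs ((1 / 3 * code l : ℚ) : ℝ) G) (a := fun i => (apt P i : ℝ))
    (profs_indep P hG _) ⌊5 * t⌋₊ (t := t) (by push_cast; linarith) (by push_cast; linarith)
  exact (convex_below _).segment_subset (key _) (key _) this

end

end Vale.Agent.P113.H281
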