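import Vale.Agent.P113.H281.Main
import Vale.Agent.P113.H282.Start
import Vale.Agent.P113.H947.Solve2
import Vale.Agent.P113.H280.Force

/-!
The five hypotheses of `main_of` are discharged.
-/

namespace Vale.Agent.P113.H281

open Set
open scoped ContDiff
open Vale.Agent.P113.H278 Vale.Agent.P113.H854

theorem isSp_smooth {G : E3 → ℝ} (h : IsSp G) : ContDiff ℝ ∞ G ∧ Per3 G := by
  obtain ⟨L, hL, e⟩ := h
  have e' : (fun x => H280.evS L x) = G := funext e
  constructor
  · rw [← e']
    exact H280.evS_contDiff hL
  · rw [← e']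
    exact fun x n => H280.evS_add_int L x n

theorem statement : Statement := by
  refine main_of H282.rePred_haltsOn (fun k f hf => H282.exists_start hf) ?_
    (fun G hG => isSp_smooth hG) H947.iteratedDeriv_rho_eq_zero
  intro G hG hind
  have hG' := hG
  choose L hL e using hG
  have e' : ∀ j, (fun x => H280.evS (L j) x) = G j := fun j => funext (e j)
  refine H947.solve_of (fun j => (isSp_smooth (hG' j)).1) (fun j => (isSp_smooth (hG' j)).2)
    hind ?_
  obtain ⟨A, h1, h2, h3⟩ := H280.exists_force_lists (G := L) hL H947.dir4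
  refine ⟨A, h1, h2, fun ν t x i => ?_⟩
  rw [h3]
  refine Finset.sum_congr rfl fun j _ => ?_
  have e2 : H280.evS (L j) = G j := e' j
  rw [e2]

end Vale.Agent.P113.H281
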