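import Vale.Agent.P113.H281.Detect
import Vale.Agent.P113.H278.Prof
import Vale.Agent.P113.H854.Sol
import Vale.Agent.P113.H982.Bridge
import Vale.Agent.P113.H907.Main
import Vale.Agent.P113.H947.Compile

/-!
The main theorem.
-/

namespace Vale.Agent.P113.H281

open Set
open scoped ContDiff
open Vale.Agent.P113.H278 Vale.Agent.P113.H907 Vale.Agent.P113.H854 Vale.Agent.P113.H947

theorem main_of
    (hRE : REPred fun Mw : Machine × List ℕ => Mw.1.HaltsOn Mw.2)
    (hstart : ∀ (k : ℕ) (f : Machine × List ℕ → List (Fin k)), Primrec f →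
      ∃ start : Machine × List ℕ → RatCode, Computable start ∧
        ∀ Mw, ratVal (start Mw) = 1 / 3 * code (f Mw))
    (hsolve : ∀ (G : Fin 4 → E3 → ℝ), (∀ j, IsSp (G j)) →
      (∀ (q : ℝ) j x (s : ℝ), profs q G j (x + s • dirs j) = profs q G j x) →
      ∃ A : Fin 3 → List Term, (∀ i, ∀ τ ∈ A i, τ.Valid) ∧
        (∀ i, ∀ τ ∈ A i, τ.isPeriodic = true) ∧
        ∀ (start : Machine × List ℕ → RatCode) (Mw : Machine × List ℕ) (ν : ℝ), 0 < ν →
          IsUniqueSmoothSolution ν (force ν (comp A start Mw))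
            (vel dirs (th 5) (profs (ratVal (start Mw)) G)) (fun _ _ => 0))
    (hsm : ∀ G : E3 → ℝ, IsSp G → ContDiff ℝ ∞ G ∧ Per3 G)
    (hrho : ∀ s : ℝ, 1 < s → iteratedDeriv 1 Vale.Agent.P113.rho s = 0) : Statement := by
  obtain ⟨m, k, P, f, hf, hH, hR⟩ := exists_prog hRE
  obtain ⟨start, hs1, hs2⟩ := hstart k f hf
  set G : Fin 4 → E3 → ℝ := ![fun x => (boxSys P).F1 cuts (x 0) (x 1),
    fun x => (boxSys P).F2 cuts (x 2), fun x => (boxSys P).F3 cuts (x 2),
    fun x => (boxSys P).F4 cuts (x 0) (x 1)] with hGdef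
  have hG : IsProfile P cuts G := ⟨fun _ => rfl, fun _ => rfl, fun _ => rfl, fun _ => rfl⟩
  have hGs : ∀ j, IsSp (G j) := by
    intro j
    fin_cases j
    · exact IsSp.F1 _
    · exact IsSp.F2 _
    · exact IsSp.F3 _
    · exact IsSp.F4 _
  obtain ⟨A, hA1, hA2, hA3⟩ := hsolve G hGs (profs_indep P hG)
  refine ⟨apt P, lo P, hi P, comp A start, 1, lo_lt_hi P,
    isForceCompiler A hs1 hA1 hA2 hrho, fun ν hν M w => ?_⟩
  have hq : ((ratVal (start (M, w)) : ℚ) : ℝ) = ((1 / 3 * code (f (M, w)) : ℚ) : ℝ) := by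
    rw [hs2]
  have hind := profs_indep P hG
  have hsol := hA3 start (M, w) ν hν
  rw [hq] at hsol
  have hX : IsTrajectory (vel dirs (th 5) (profs ((1 / 3 * code (f (M, w)) : ℚ) : ℝ) G))
      (fun i => (apt P i : ℝ)) (traj P (f (M, w)) G) :=
    ⟨X_zero, fun t ht => X_hasDerivWithinAt (hind _) ht⟩
  refine ⟨_, _, hsol, ⟨_, hX⟩, ?_⟩
  intro Y hY
  have hc : ∀ j, ContDiff ℝ 1 (profs ((1 / 3 * code (f (M, w)) : ℚ) : ℝ) G j) := by
    intro j
    fin_cases j
    · exact contDiff_const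
    · exact (hsm _ (hGs 0)).1.of_le (by exact_mod_cast le_top)
    · exact (hsm _ (hGs 1)).1.of_le (by exact_mod_cast le_top)
    · exact (hsm _ (hGs 2)).1.of_le (by exact_mod_cast le_top)
    · exact (hsm _ (hGs 3)).1.of_le (by exact_mod_cast le_top)
  have hper : ∀ j, Per3 (profs ((1 / 3 * code (f (M, w)) : ℚ) : ℝ) G j) := by
    intro j
    fin_cases j
    · exact fun _ _ => rfl
    · exact (hsm _ (hGs 0)).2
    · exact (hsm _ (hGs 1)).2
    · exact (hsm _ (hGs 2)).2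
    · exact (hsm _ (hGs 3)).2
  have hYX : ∀ t, 0 ≤ t → Y t = traj P (f (M, w)) G t := by
    intro t ht
    have := traj_eq_X five_pos hc hper (hind _) hY.2 t ht
    rw [this, hY.1]
    rfl
  by_cases hh : M.HaltsOn w
  · refine ⟨fun _ => hh, fun _ => ?_⟩
    obtain ⟨t, ht, hb⟩ := detect_of_halts P (f (M, w)) hG (hH (M, w) hh)
    exact ⟨t, ht, by rw [hYX t ht]; exact hb⟩
  · refine ⟨fun ⟨t, ht, hb⟩ => ?_, fun h => absurd h hh⟩
    rw [hYX t ht] at hb
    exact absurd hb (not_detect_of_runs P (f (M, w)) hG (hR (M, w) hh) t ht)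

end Vale.Agent.P113.H281
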